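import Mathlib
import Vale.Agent.Lib.P137.helper41.Defs

/-!
# P137 (helper38, backup copy of pool job P137-E): the dyadic-shell tail bound

`lintegral_norm_gt_le`: for `d ≥ 1` and `a > 0`, the integral of
`1 / (|B(0, |x|)| * |x|)` over `{|x| > a}` is at most `2 ^ (d + 1) / a`.
Proof by the dyadic shells `2 ^ k * a ≤ |x| < 2 ^ (k + 1) * a` and a geometric series.
-/

namespace Vale.Agent.Lib.P137.H38

open Vale.Agent.Lib.P137 MeasureTheory Metric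
open scoped ENNReal

/-- Volume of a centered ball in `E d`, `d ≥ 1`. -/
theorem vol_ball_eq {d : ℕ} (hd : 1 ≤ d) {r : ℝ} (hr : 0 ≤ r) :
    volume (ball (0 : E d) r) = ENNReal.ofReal r ^ d * volume (ball (0 : E d) 1) := by
  have hnt : Nontrivial (E d) :=
    Module.nontrivial_of_finrank_pos (R := ℝ) (by rw [finrank_euclideanSpace_fin]; omega)
  rw [Measure.addHaar_ball volume (0 : E d) hr, finrank_euclideanSpace_fin, ENNReal.ofReal_pow hr]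

theorem lintegral_norm_gt_le {d : ℕ} (hd : 1 ≤ d) {a : ℝ} (ha : 0 < a) :
    ∫⁻ x in {x : E d | a < ‖x‖}, (volume (ball (0 : E d) ‖x‖))⁻¹ / ENNReal.ofReal ‖x‖ ≤
      2 ^ (d + 1) / ENNReal.ofReal a := by
  have hκ0 : volume (ball (0 : E d) 1) ≠ 0 := (measure_ball_pos volume (0 : E d) one_pos).ne'
  have hκt : volume (ball (0 : E d) 1) ≠ ⊤ := measure_ball_lt_top.ne
  have hb0 : ENNReal.ofReal a ≠ 0 := (ENNReal.ofReal_pos.2 ha).ne'
  have hbt : ENNReal.ofReal a ≠ ⊤ := ENNReal.ofReal_ne_top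
  generalize hκ : volume (ball (0 : E d) 1) = κ at hκ0 hκt
  generalize hb : ENNReal.ofReal a = b at hb0 hbt
  have hS : ∀ k : ℕ, MeasurableSet {x : E d | 2 ^ k * a ≤ ‖x‖ ∧ ‖x‖ < 2 ^ (k + 1) * a} := fun k =>
    (measurableSet_le measurable_const measurable_norm).inter
      (measurableSet_lt measurable_norm measurable_const)
  have hcover : {x : E d | a < ‖x‖}
      ⊆ ⋃ k : ℕ, {x : E d | 2 ^ k * a ≤ ‖x‖ ∧ ‖x‖ < 2 ^ (k + 1) * a} := by
    intro x hx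
    have hx' : a < ‖x‖ := hx
    have h1 : 1 ≤ ‖x‖ / a := by
      rw [le_div_iff₀ ha]
      linarith
    obtain ⟨n, hn1, hn2⟩ := exists_nat_pow_near h1 (by norm_num : (1 : ℝ) < 2)
    refine Set.mem_iUnion.2 ⟨n, ?_, ?_⟩
    · rw [le_div_iff₀ ha] at hn1
      exact hn1
    · rw [div_lt_iff₀ ha] at hn2
      exact hn2
  -- the bound on one shell
  have hshell : ∀ k : ℕ,
      ∫⁻ x in {x : E d | 2 ^ k * a ≤ ‖x‖ ∧ ‖x‖ < 2 ^ (k + 1) * a},
        (volume (ball (0 : E d) ‖x‖))⁻¹ / ENNReal.ofReal ‖x‖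
      ≤ 2 ^ d / b * (2⁻¹ : ℝ≥0∞) ^ k := by
    intro k
    have hR : (0 : ℝ) < 2 ^ k * a := by positivity
    have hofR : ENNReal.ofReal (2 ^ k * a) = 2 ^ k * b := by
      rw [ENNReal.ofReal_mul (by positivity), ENNReal.ofReal_pow (by norm_num), hb]
      simp
    have hofR2 : ENNReal.ofReal (2 ^ (k + 1) * a) = 2 * (2 ^ k * b) := by
      rw [ENNReal.ofReal_mul (by positivity), ENNReal.ofReal_pow (by norm_num), hb]
      simp only [ENNReal.ofReal_ofNat]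
      ring
    have h2k0 : (2 ^ k * b : ℝ≥0∞) ≠ 0 := mul_ne_zero (pow_ne_zero _ two_ne_zero) hb0
    have h2kt : (2 ^ k * b : ℝ≥0∞) ≠ ⊤ :=
      ENNReal.mul_ne_top (ENNReal.pow_ne_top ENNReal.ofNat_ne_top) hbt
    have hw0 : (2 ^ k * b) ^ d * κ ≠ 0 := mul_ne_zero (pow_ne_zero _ h2k0) hκ0
    have hwt : (2 ^ k * b) ^ d * κ ≠ ⊤ := ENNReal.mul_ne_top (ENNReal.pow_ne_top h2kt) hκt
    have hV1 : volume (ball (0 : E d) (2 ^ k * a)) = (2 ^ k * b) ^ d * κ := by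
      rw [vol_ball_eq hd hR.le, hofR, hκ]
    have hV2 : volume (ball (0 : E d) (2 ^ (k + 1) * a)) = 2 ^ d * ((2 ^ k * b) ^ d * κ) := by
      rw [vol_ball_eq hd (by positivity), hofR2, hκ, mul_pow, mul_assoc]
    generalize hw : (2 ^ k * b) ^ d * κ = w at hw0 hwt hV1 hV2
    calc ∫⁻ x in {x : E d | 2 ^ k * a ≤ ‖x‖ ∧ ‖x‖ < 2 ^ (k + 1) * a},
          (volume (ball (0 : E d) ‖x‖))⁻¹ / ENNReal.ofReal ‖x‖
        ≤ ∫⁻ _x in {x : E d | 2 ^ k * a ≤ ‖x‖ ∧ ‖x‖ < 2 ^ (k + 1) * a}, w⁻¹ / (2 ^ k * b) := by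
          apply setLIntegral_mono' (hS k)
          intro x hx
          apply ENNReal.div_le_div
          · rw [ENNReal.inv_le_inv, ← hV1]
            exact measure_mono (ball_subset_ball hx.1)
          · rw [← hofR]
            exact ENNReal.ofReal_le_ofReal hx.1
      _ = w⁻¹ / (2 ^ k * b)
            * volume {x : E d | 2 ^ k * a ≤ ‖x‖ ∧ ‖x‖ < 2 ^ (k + 1) * a} :=
          setLIntegral_const _ _
      _ ≤ w⁻¹ / (2 ^ k * b) * (2 ^ d * w) := by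
          gcongr
          rw [← hV2]
          apply measure_mono
          intro x hx
          rw [mem_ball_zero_iff]
          exact hx.2
      _ = 2 ^ d / b * (2⁻¹ : ℝ≥0∞) ^ k := by
          rw [ENNReal.div_eq_inv_mul, ENNReal.div_eq_inv_mul,
            ENNReal.mul_inv (Or.inl (pow_ne_zero _ two_ne_zero))
              (Or.inl (ENNReal.pow_ne_top ENNReal.ofNat_ne_top)), ENNReal.inv_pow]
          calc (2⁻¹ : ℝ≥0∞) ^ k * b⁻¹ * w⁻¹ * (2 ^ d * w)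
              = (2⁻¹ : ℝ≥0∞) ^ k * b⁻¹ * 2 ^ d * (w⁻¹ * w) := by ring
            _ = b⁻¹ * 2 ^ d * (2⁻¹ : ℝ≥0∞) ^ k := by
                rw [ENNReal.inv_mul_cancel hw0 hwt]
                ring
  calc ∫⁻ x in {x : E d | a < ‖x‖}, (volume (ball (0 : E d) ‖x‖))⁻¹ / ENNReal.ofReal ‖x‖
      ≤ ∫⁻ x in ⋃ k : ℕ, {x : E d | 2 ^ k * a ≤ ‖x‖ ∧ ‖x‖ < 2 ^ (k + 1) * a},
          (volume (ball (0 : E d) ‖x‖))⁻¹ / ENNReal.ofReal ‖x‖ :=
        lintegral_mono_set hcover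
    _ ≤ ∑' k : ℕ, ∫⁻ x in {x : E d | 2 ^ k * a ≤ ‖x‖ ∧ ‖x‖ < 2 ^ (k + 1) * a},
          (volume (ball (0 : E d) ‖x‖))⁻¹ / ENNReal.ofReal ‖x‖ :=
        lintegral_iUnion_le _ _
    _ ≤ ∑' k : ℕ, 2 ^ d / b * (2⁻¹ : ℝ≥0∞) ^ k := ENNReal.tsum_le_tsum hshell
    _ = 2 ^ d / b * ∑' k : ℕ, (2⁻¹ : ℝ≥0∞) ^ k := ENNReal.tsum_mul_left
    _ = 2 ^ (d + 1) / b := by
        rw [ENNReal.tsum_geometric, ENNReal.one_sub_inv_two, inv_inv, ENNReal.div_eq_inv_mul,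
          ENNReal.div_eq_inv_mul, pow_succ]
        ring

end Vale.Agent.Lib.P137.H38
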